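import Vale.Agent.P144E.Ge2.Far

/-!
Reentrant corners: the outside of a dug tip is locally connected and thick.
-/

namespace Vale.Agent.P144Z

open GeoA

namespace Ge2

/-- Points deep in the opposite cone, for any shift. -/
theorem deep {S : Set (ℤ × ℤ)} {ν : ℂ} {α κ a b : ℝ} (h : Epi S ν κ) (hν : ‖ν‖ = 1) (h0 : 0 ≤ κ)
    (h1 : κ ≤ 1 / 8) (h2 : κ ≤ α / 16) (ha : |a| ≤ 1) (hb : |b| ≤ 1)
    (hab : α / 2 ≤ a * ν.re + b * ν.im) {v e x : ℤ × ℤ} (hv : v ∉ S)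
    (he : e.1.natAbs + e.2.natAbs ≤ 1) {t D : ℕ} (hx : zd x (ray v e a b t) ≤ D)
    (hD : 8 * ((D : ℝ) + 13) ≤ α * t) : x ∉ S := by
  refine epi_out h hv ((mul_le_mul_of_nonneg_left (len_le _) h0).trans ?_)
  have d1 : (x.1 - (v.1 - ⌊(t : ℝ) * a⌋)).natAbs ≤ D + 12 := by
    have := (le_max_left _ _).trans hx
    simp only [ray] at this
    omega
  have d2 : (x.2 - (v.2 - ⌊(t : ℝ) * b⌋)).natAbs ≤ D + 12 := by
    have := (le_max_right _ _).trans hx
    simp only [ray] at this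
    omega
  have e1 := near_real d1
  have e2 := near_real d2
  simp only [ht, Prod.fst_sub, Prod.snd_sub]
  push_cast at e1 e2 ⊢
  have ht0 : (0 : ℝ) ≤ t := Nat.cast_nonneg t
  have hD0 : (0 : ℝ) ≤ D := Nat.cast_nonneg D
  set p := (v.1 : ℝ) - x.1 - t * a with hp
  set q := (v.2 : ℝ) - x.2 - t * b with hq
  have f1 : (v.1 : ℝ) - x.1 = t * a + p := by rw [hp]; ring
  have f2 : (v.2 : ℝ) - x.2 = t * b + q := by rw [hq]; ring
  have g : ∀ c w : ℝ, |c| ≤ 1 → |w| ≤ D + 12 + 1 → |t * c + w| ≤ t + (D + 12 + 1) :=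
    fun c w hc hw =>
      (abs_add_le _ _).trans (add_le_add (abs_mul_le (abs_of_nonneg ht0).le hc) hw)
  rw [f1, f2]
  have g1 := g a p ha e1
  have g2 := g b q hb e2
  have g3 := (abs_le.1 (abs_mul_le e1 (abs_re hν))).1
  have g4 := (abs_le.1 (abs_mul_le e2 (abs_im hν))).1
  have g5 := mul_le_mul_of_nonneg_left hab ht0
  have g6 : κ * (|t * a + p| + |t * b + q|) ≤ κ * (2 * t + 2 * (D + 13)) :=
    mul_le_mul_of_nonneg_left (by linarith) h0
  have g7 : κ * (2 * (D + 13)) ≤ 1 / 8 * (2 * (D + 13)) :=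
    mul_le_mul_of_nonneg_right h1 (by positivity)
  have g8 := mul_le_mul_of_nonneg_right h2 ht0
  nlinarith

theorem rch_mono {G G' : ℤ × ℤ → Prop} (h : ∀ x, G x → G' x) {u w : ℤ × ℤ} (k : Rch G u w) :
    Rch G' u w :=
  Relation.ReflTransGen.mono (fun _ _ o => ⟨h _ o.1, h _ o.2.1, o.2.2⟩) _ _ k

/-- Continuation of a path along the ray. -/
theorem rch_along {G : ℤ × ℤ → Prop} {a b : ℝ} (ha : |a| ≤ 1) (hb : |b| ≤ 1) {v e : ℤ × ℤ}
    {j T : ℕ} (hj : j ≤ T) (hG : ∀ t x, j ≤ t → t ≤ T → zd x (ray v e a b t) ≤ 1 → G x) :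
    Rch G (ray v e a b j) (ray v e a b T) := by
  induction T, hj using Nat.le_induction with
  | base => exact Relation.ReflTransGen.refl
  | succ t ht ih =>
    refine (ih fun t' x h1 h2 => hG t' x h1 (by omega)).trans
      (rch_box (D := 1) (fun x hx => hG t x ht (by omega) hx) ?_).symm
    have := floor_step ha t
    have := floor_step hb t
    simp only [zd, ray]
    omega

theorem zd_sub (x f : ℤ × ℤ) : zd (x - f) 0 = zd x f := by simp [zd]

end Ge2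

open Ge2

theorem tipConn_of (hF : TipFar) : TipConn := by
  intro α hα
  obtain ⟨N₀, κ₁, p1, hF⟩ := hF α hα
  obtain ⟨j, hj⟩ : ∃ j : ℕ, 328 ≤ α * j :=
    ⟨⌈328 / α⌉₊, by rw [mul_comm]; exact (div_le_iff₀ hα).1 (Nat.le_ceil _)⟩
  refine ⟨N₀ * (j + 13 + 1) + (j + 14), min κ₁ (α / 16), by positivity, fun t ht =>
    ⟨(j + 37) * (t + 1), fun κ h0 hκ S₁ S₂ ν₁ ν₂ h => ?_⟩⟩
  have h2 : κ ≤ α / 16 := hκ.trans (min_le_right _ _)
  have h1 : κ ≤ 1 / 8 := by linarith [h.le_two]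
  replace hF := hF κ h0 (hκ.trans (min_le_left _ _)) S₁ S₂ ν₁ ν₂ h
  obtain ⟨a, b, ha, hb, m1, m2⟩ := exists_mu h.n₁ h.n₂ hα h.add
  have out : ∀ x, x ∉ S₁ → x ∉ S₂ → x ∉ Dug S₁ S₂ t := fun x k1 k2 o => o.1.elim k1 k2
  have sq : ∀ x, zd x 0 ≤ t → x ∉ Dug S₁ S₂ t := fun x k o => absurd o.2 (not_lt.2 k)
  have dp : ∀ (v e x : ℤ × ℤ) (T D : ℕ), v ∉ S₁ → v ∉ S₂ → e.1.natAbs + e.2.natAbs ≤ 1 →
      zd x (ray v e a b T) ≤ D → 8 * ((D : ℝ) + 13) ≤ α * T → x ∉ Dug S₁ S₂ t :=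
    fun v e x T D k1 k2 he hx hD => out x (Ge2.deep h.e₁ h.n₁ h0 h1 h2 ha hb m1 k1 he hx hD)
      (Ge2.deep h.e₂ h.n₂ h0 h1 h2 ha hb m2 k2 he hx hD)
  have u0 : ((0, 0) : ℤ × ℤ).1.natAbs + ((0, 0) : ℤ × ℤ).2.natAbs ≤ 1 := by simp
  obtain ⟨v₀, v1, v2, v3⟩ : ∃ v, zd v 0 ≤ j + 14 ∧ v ∉ S₁ ∧ v ∉ S₂ := by
    obtain ⟨f₁, k1, k2⟩ := h.w₁.2
    obtain ⟨f₂, k3, k4⟩ := h.w₂.2
    refine ⟨ray f₁ (0, 0) a b j, ?_, Ge2.deep (D := 0) h.e₁ h.n₁ h0 h1 h2 ha hb m1 k1 u0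
      (t := j) (by simp [zd]) (by push_cast; linarith), Ge2.deep (D := 28) h.e₂ h.n₂ h0 h1 h2 ha
        hb m2 k3 u0 (t := j) ?_ (by push_cast; linarith)⟩
    · have := zd_ray ha hb f₁ u0 j
      have := zd_tri (ray f₁ (0, 0) a b j) f₁ 0
      omega
    · have := zd_ray_ray a b f₂ f₁ u0 u0 j
      have := zd_tri f₁ 0 f₂
      rw [zd_comm 0] at this
      omega
  have base : ∀ f, f ∉ Dug S₁ S₂ t → ∃ g, g ∉ S₁ ∧ g ∉ S₂ ∧ zd g f ≤ 2 * t ∧
      Rch (fun x => x ∉ Dug S₁ S₂ t ∧ zd x f ≤ 2 * t) f g := by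
    intro f hf
    by_cases c : zd f 0 ≤ t
    · have k : ∀ x, zd x 0 ≤ t → zd x f ≤ 2 * t := fun x hx => by
        have := zd_tri x 0 f
        rw [zd_comm 0] at this
        omega
      exact ⟨v₀, v2, v3, k _ (by omega), (rch_box (fun x hx => ⟨sq x hx, k x hx⟩) c).trans
        (rch_box (D := t) (fun x hx => ⟨sq x hx, k x hx⟩) (by omega)).symm⟩
    · exact ⟨f, fun o => hf ⟨Or.inl o, by omega⟩, fun o => hf ⟨Or.inr o, by omega⟩, by simp [zd],
        Relation.ReflTransGen.refl⟩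
  have start : ∀ g, g ∉ S₁ → g ∉ S₂ → ∃ e : ℤ × ℤ, e.1.natAbs + e.2.natAbs ≤ 1 ∧
      Rch (fun x => x ∉ Dug S₁ S₂ t ∧ zd x g ≤ j + 13) g (ray g e a b j) := by
    intro g k1 k2
    by_cases c : N₀ * (j + 13 + 1) ≤ zd g 0
    · obtain ⟨S, ν, n1, n2, n3⟩ := hF g (j + 13) c
      have n4 : ‖ν‖ = 1 := by
        rcases n1 with rfl | rfl
        exacts [h.n₁, h.n₂]
      have n5 : α / 2 ≤ a * ν.re + b * ν.im := by
        rcases n1 with rfl | rfl
        exacts [m1, m2]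
      obtain ⟨e, he, he'⟩ := exists_best n4
      refine ⟨e, unit_le he, rch_ray (epi_shift n2 (-g)) n4 h0 h1 ha hb (by linarith) ?_ he he'
        fun x k3 k4 => ⟨fun o => k3 ?_, k4⟩⟩
      · intro o
        have n6 := (n3 0 (by simp [zd])).2 (by simpa using o)
        rw [add_zero] at n6
        exact n6.elim k1 k2
      · have n6 := (n3 (x - g) (zd_sub x g ▸ k4)).1 (by simpa using o.1)
        rwa [sub_eq_neg_add] at n6
    · have k3 : ∀ x, zd x g ≤ j + 13 → x ∉ Dug S₁ S₂ t ∧ zd x g ≤ j + 13 := fun x hx => by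
        refine ⟨sq x ?_, hx⟩
        have := zd_tri x g 0
        omega
      refine ⟨(0, 0), u0, (rch_box k3 ?_).symm⟩
      have := zd_ray ha hb g u0 j
      omega
  have s0 : ∀ s : ℕ, (0 : ℝ) ≤ s := fun s => Nat.cast_nonneg s
  refine ⟨⟨v₀, by omega, v2, v3⟩, fun f s hf => ?_, fun y f f' s hf hf' k k' => ?_⟩
  · obtain ⟨g, g1, g2, g3, -⟩ := base f hf
    refine ⟨ray g (0, 0) a b (j * (s + 1)), ?_, fun x hx => dp g _ x _ s g1 g2 u0 hx ?_⟩
    · have := zd_ray ha hb g u0 (j * (s + 1))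
      have := zd_tri (ray g (0, 0) a b (j * (s + 1))) g f
      nlinarith [Nat.zero_le (j * t * s), Nat.zero_le (j * t), Nat.zero_le (t * s)]
    · push_cast
      nlinarith [mul_le_mul_of_nonneg_right hj (show (0 : ℝ) ≤ s + 1 by linarith [s0 s]), s0 s]
  · obtain ⟨T, hT⟩ : ∃ T, T = j * (s + t + 1) := ⟨_, rfl⟩
    have T1 : j ≤ T := hT ▸ Nat.le_mul_of_pos_right _ (by omega)
    have T2 : T + 3 * s + 6 * t + 37 ≤ (j + 37) * (t + 1) * (s + 1) := by
      rw [hT]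
      nlinarith [Nat.zero_le (j * t * s), Nat.zero_le (t * s)]
    have T3 : 328 * ((s : ℝ) + t + 1) ≤ α * T := by
      rw [hT]
      push_cast
      nlinarith [mul_le_mul_of_nonneg_right hj
        (show (0 : ℝ) ≤ s + t + 1 by linarith [s0 s, s0 t])]
    generalize (j + 37) * (t + 1) * (s + 1) = Q at T2 ⊢
    have key : ∀ f, zd f y ≤ s → f ∉ Dug S₁ S₂ t → ∃ g e : ℤ × ℤ, zd g y ≤ s + 2 * t ∧
        e.1.natAbs + e.2.natAbs ≤ 1 ∧
        Rch (fun x => x ∉ Dug S₁ S₂ t ∧ zd x y ≤ Q) f (ray g e a b T) ∧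
        ∀ x, zd x (ray g e a b T) ≤ 2 * s + 4 * t + 24 → x ∉ Dug S₁ S₂ t ∧ zd x y ≤ Q := by
      intro f hf k
      obtain ⟨g, g1, g2, g3, g4⟩ := base f k
      obtain ⟨e, he, g5⟩ := start g g1 g2
      have g6 := zd_tri g f y
      have r1 : Rch (fun x => x ∉ Dug S₁ S₂ t ∧ zd x y ≤ Q) f g := by
        refine rch_mono (fun x hx => ⟨hx.1, ?_⟩) g4
        have := zd_tri x f y
        have := hx.2
        omega
      have r2 : Rch (fun x => x ∉ Dug S₁ S₂ t ∧ zd x y ≤ Q) g (ray g e a b j) := by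
        refine rch_mono (fun x hx => ⟨hx.1, ?_⟩) g5
        have := zd_tri x g y
        have := hx.2
        omega
      have r3 : Rch (fun x => x ∉ Dug S₁ S₂ t ∧ zd x y ≤ Q) (ray g e a b j) (ray g e a b T) := by
        refine rch_along ha hb T1 fun t' x o1 o2 hx => ⟨dp g e x t' 1 g1 g2 he hx ?_, ?_⟩
        · have o3 : (j : ℝ) ≤ t' := by exact_mod_cast o1
          have := mul_le_mul_of_nonneg_left o3 hα.le
          push_cast
          linarith
        · have := zd_ray ha hb g he t'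
          have := zd_tri x (ray g e a b t') g
          have := zd_tri x g y
          omega
      refine ⟨g, e, by omega, he, (r1.trans r2).trans r3,
        fun x hx => ⟨dp g e x T _ g1 g2 he hx ?_, ?_⟩⟩
      · push_cast
        linarith [s0 s, s0 t]
      · have := zd_ray ha hb g he T
        have := zd_tri x (ray g e a b T) g
        have := zd_tri x g y
        omega
    obtain ⟨g, e, g1, he, p1, p2⟩ := key f hf k
    obtain ⟨g', e', g2, he', p3, -⟩ := key f' hf' k'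
    refine p1.trans (p3.trans (rch_box p2 ?_)).symm
    have := zd_ray_ray a b g g' he he' T
    have := zd_tri g' y g
    rw [zd_comm y] at this
    omega

theorem tipConn : TipConn := tipConn_of tipFar

end Vale.Agent.P144Z
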