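import Vale.Agent.P144E.Basic
import Vale.Agent.P144D.Geo.Cov

/-!
Reentrant corners: away from the tip only one wall is seen.
-/

namespace Vale.Agent.P144Z

open B5b

namespace Ge2

theorem bx_of {v : ℤ × ℤ} {n : ℕ} (h : zd v 0 ≤ n) : Bx n v := bx_iff.1 h

/-- Points high above a wall are inside. -/
theorem inn {S : Set (ℤ × ℤ)} {ν : ℂ} {κ : ℝ} (h : Epi S ν κ) (hν : ‖ν‖ = 1) (h0 : 0 ≤ κ)
    (h1 : κ ≤ 1 / 4) (w : ∃ f ∈ S, zd f 0 ≤ 2) {y v : ℤ × ℤ} {z ρ : ℕ} (hy : zd y 0 ≤ z)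
    (hv : zd v 0 ≤ ρ) (hh : 2 * κ * z + 3 * ρ + 5 ≤ ht ν y) : y + v ∈ S := by
  obtain ⟨f, f1, f2⟩ := w
  have b1 := bx_of hy
  have b2 := bx_of hv
  have b3 := bx_of f2
  refine epi_of h h0 f1 ((b1.add b2).sub b3) ?_
  have k1 := (abs_le.1 (b2.ht_le hν.le)).1
  have k2 := (abs_le.1 (b3.ht_le hν.le)).2
  have k3 : κ * (2 * ρ + 4) ≤ 1 / 4 * (2 * ρ + 4) := mul_le_mul_of_nonneg_right h1 (by positivity)
  have k4 : (0 : ℝ) ≤ ρ := Nat.cast_nonneg ρ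
  rw [ht_sub, ht_add]
  push_cast at k1 k2 ⊢
  nlinarith

/-- Points far below a wall are outside. -/
theorem out {S : Set (ℤ × ℤ)} {ν : ℂ} {κ : ℝ} (h : Epi S ν κ) (hν : ‖ν‖ = 1) (h0 : 0 ≤ κ)
    (h1 : κ ≤ 1 / 4) (w : ∃ f, f ∉ S ∧ zd f 0 ≤ 2) {y v : ℤ × ℤ} {z ρ : ℕ} (hy : zd y 0 ≤ z)
    (hv : zd v 0 ≤ ρ) (hh : ht ν y ≤ -(2 * κ * z + 3 * ρ + 5)) : y + v ∉ S := by
  obtain ⟨f, f1, f2⟩ := w
  have b1 := bx_of hy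
  have b2 := bx_of hv
  have b3 := bx_of f2
  refine fun o => f1 (epi_of h h0 o (b3.sub (b1.add b2)) ?_)
  have k1 := (abs_le.1 (b2.ht_le hν.le)).2
  have k2 := (abs_le.1 (b3.ht_le hν.le)).1
  have k3 : κ * (2 * ρ + 4) ≤ 1 / 4 * (2 * ρ + 4) := mul_le_mul_of_nonneg_right h1 (by positivity)
  have k4 : (0 : ℝ) ≤ ρ := Nat.cast_nonneg ρ
  rw [ht_sub, ht_add]
  push_cast at k1 k2 ⊢
  nlinarith

theorem epi_univ (ν : ℂ) (κ : ℝ) : Epi Set.univ ν κ := fun _ _ _ _ => trivial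

theorem epi_shift {S : Set (ℤ × ℤ)} {ν : ℂ} {κ : ℝ} (h : Epi S ν κ) (y : ℤ × ℤ) :
    Epi {v | y + v ∈ S} ν κ := fun u hu v hv => by
  have := h _ hu v hv
  rwa [add_assoc] at this

theorem zd_le_real {y : ℤ × ℤ} {c : ℝ} (h1 : |(y.1 : ℝ)| ≤ c) (h2 : |(y.2 : ℝ)| ≤ c) :
    (zd y 0 : ℝ) ≤ c := by
  simp only [zd, Prod.fst_zero, Prod.snd_zero, sub_zero, Nat.cast_max, max_le_iff,
    Nat.cast_natAbs, Int.cast_abs]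
  exact ⟨h1, h2⟩

end Ge2

open Ge2

theorem TipS.le_two {S₁ S₂ : Set (ℤ × ℤ)} {ν₁ ν₂ : ℂ} {α κ : ℝ} (h : TipS S₁ S₂ ν₁ ν₂ α κ) :
    α ≤ 2 := by
  linarith [norm_add_le ν₁ ν₂, h.n₁, h.n₂, h.add]

theorem tipFar : TipFar := by
  intro α hα
  have hα2 : 0 < α * α := mul_pos hα hα
  refine ⟨⌈48 / (α * α)⌉₊, α * α / 16, by positivity, fun κ h0 hκ S₁ S₂ ν₁ ν₂ h y ρ hy => ?_⟩
  have a2 := h.le_two
  have h1 : κ ≤ 1 / 4 := by nlinarith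
  have r0 : (0 : ℝ) ≤ ρ := Nat.cast_nonneg ρ
  set A : ℝ := 2 * κ * zd y 0 + 3 * ρ + 5 with hA
  by_cases c1 : A ≤ ht ν₁ y
  · exact ⟨Set.univ, ν₁, Or.inl rfl, epi_univ _ _, fun v hv =>
      iff_of_true (Or.inl (inn h.e₁ h.n₁ h0 h1 h.w₁.1 le_rfl hv c1)) trivial⟩
  by_cases c2 : A ≤ ht ν₂ y
  · exact ⟨Set.univ, ν₁, Or.inl rfl, epi_univ _ _, fun v hv =>
      iff_of_true (Or.inr (inn h.e₂ h.n₂ h0 h1 h.w₂.1 le_rfl hv c2)) trivial⟩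
  by_cases c3 : ht ν₁ y ≤ -A
  · exact ⟨_, ν₂, Or.inr rfl, epi_shift h.e₂ y, fun v hv =>
      or_iff_right (out h.e₁ h.n₁ h0 h1 h.w₁.2 le_rfl hv c3)⟩
  by_cases c4 : ht ν₂ y ≤ -A
  · exact ⟨_, ν₁, Or.inl rfl, epi_shift h.e₁ y, fun v hv =>
      or_iff_left (out h.e₂ h.n₂ h0 h1 h.w₂.2 le_rfl hv c4)⟩
  exfalso
  obtain ⟨k1, k2⟩ := cramer (A := A) h.n₁ h.n₂ hα hα h.add h.sub (w := y)
    (abs_le.2 ⟨by linarith, by linarith⟩) (abs_le.2 ⟨by linarith, by linarith⟩)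
  have k3 := (le_div_iff₀ hα2).1 (zd_le_real k1 k2)
  have k4 : 48 ≤ (⌈48 / (α * α)⌉₊ : ℝ) * (α * α) := (div_le_iff₀ hα2).1 (Nat.le_ceil _)
  have k5 : (⌈48 / (α * α)⌉₊ : ℝ) * (ρ + 1) ≤ zd y 0 := by exact_mod_cast hy
  have k6 : (0 : ℝ) ≤ zd y 0 := Nat.cast_nonneg _
  have k7 := mul_le_mul_of_nonneg_right hκ k6
  have k8 := mul_le_mul_of_nonneg_right k5 hα2.le
  have k9 := mul_le_mul_of_nonneg_right k4 (show (0 : ℝ) ≤ ρ + 1 by linarith)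
  nlinarith

end Vale.Agent.P144Z
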